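import Vale.Agent.P167.H364.Root
import Vale.Agent.P167.H259.S.ArcI
import Vale.Agent.P167.H72.SD.LoP

/-!
# P167, `0 < q < 4`, [GEO]: the boundary of an enlarged shape, coordinates relative to `d`

`PN P.q N i` is the boundary site with the index `i`; `xt N P` is the configuration outside.
-/

set_option autoImplicit false

namespace Vale.Agent.P167.H369

open Finset Relation Vale.Agent.P167 Vale.Agent.P167.FK
open Vale.Agent.P145.FB (PStep)
open Vale.Agent.P167.FKA (Cor)
open Vale.Agent.P167.E6 (IsPolygon Encloses dir face)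
open Vale.Agent.P167.H718 (OutC etaW mem_opW Chordless dirInj)
open Vale.Agent.P167.H825 (enl pdir)
open Vale.Agent.P167.QT (Sh4 dom ext arcc rot)
open Vale.Agent.P167.Enl (PN qN qN_nat PN_lin PN_succ PN_add_l PN_inj pdir_step mem_enl_div dir0 dir1
  dir2 dir3 face0 face1 face2 face3)
open Vale.Agent.P167.H72.SD (rot_poly rot_encl cor_face cor_face_dir')

section gen

variable {m N : ℕ} {q : ZMod m → ℤ × ℤ} {S : Finset (ℤ × ℤ)}

theorem face_of_cor {v z : ℤ × ℤ} (h : Cor v z) : ∃ r, v = face z r := by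
  obtain ⟨h1, h2⟩ := h
  obtain ⟨a, b⟩ := v
  obtain ⟨c, d⟩ := z
  simp only at h1 h2
  rcases h1 with h1 | h1 <;> rcases h2 with h2 | h2
  · exact ⟨0, by rw [face0, Prod.mk.injEq]; omega⟩
  · exact ⟨3, by rw [face3, Prod.mk.injEq]; omega⟩
  · exact ⟨1, by rw [face1, Prod.mk.injEq]; omega⟩
  · exact ⟨2, by rw [face2, Prod.mk.injEq]; omega⟩

/-- Equal sites have equal indices modulo the length. -/
theorem PN_dvd (hN : 0 < N) (hq : IsPolygon q) {i i' : ℕ} (h : PN q N i = PN q N i') :
    ((m * N : ℕ) : ℤ) ∣ (i : ℤ) - i' := by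
  have h1 := PN_inj hN hq h
  rw [ZMod.natCast_eq_natCast_iff] at h1
  exact (Nat.modEq_iff_dvd.1 h1.symm)

theorem PN_inj' (hN : 0 < N) (hq : IsPolygon q) {i i' : ℕ} (h : PN q N i = PN q N i')
    (h1 : i < i' + m * N) (h2 : i' < i + m * N) : i = i' := by
  obtain ⟨t, ht⟩ := PN_dvd hN hq h
  have h3 : ((m * N : ℕ) : ℤ) = (m : ℤ) * N := by push_cast; rfl
  have h4 : (i : ℤ) < i' + m * N := by exact_mod_cast h1
  have h5 : (i' : ℤ) < i + m * N := by exact_mod_cast h2
  rw [h3] at ht
  have hm := hq.1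
  have hp : (0 : ℤ) < m * N := by
    have : 0 < m * N := Nat.mul_pos (by omega) hN
    exact_mod_cast this
  have h6 : t < 1 := by
    by_contra hc
    push Not at hc
    nlinarith
  have h7 : -1 < t := by
    by_contra hc
    push Not at hc
    nlinarith
  have h8 : t = 0 := by omega
  rw [h8] at ht
  omega

/-- The parity of the sites. -/
theorem PN_par (hN : 0 < N) (h2 : 2 ∣ N) (hq : IsPolygon q) (i : ℕ) :
    ((PN q N i).1 + (PN q N i).2) % 2 = (i : ℤ) % 2 := by
  induction i with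
  | zero =>
    obtain ⟨c, rfl⟩ := h2
    unfold PN
    simp only [Nat.zero_div, Nat.zero_mod, Nat.cast_zero, zero_smul, add_zero, Prod.smul_fst,
      Prod.smul_snd, smul_eq_mul]
    push_cast
    rw [show (2 * (c : ℤ)) * (q 0).1 + 2 * c * (q 0).2 = 2 * (c * (q 0).1 + c * (q 0).2) by ring]
    omega
  | succ i ih =>
    rw [PN_succ hN hq]
    generalize pdir q (i / N) = d
    push_cast
    fin_cases d <;> simp only [Fin.zero_eta, Fin.mk_one, Fin.reduceFinMk, dir0, dir1, dir2, dir3,
      Prod.fst_add, Prod.snd_add] <;> omega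

/-- The sides. -/
theorem PN_side (hN : 0 < N) (hq : IsPolygon q) (hS : Encloses q S) (i : ℕ) :
    ∃ d, PN q N (i + 1) = PN q N i + dir d ∧ face (PN q N i) d ∈ enl S N ∧
      face (PN q N i) (d - 1) ∉ enl S N := by
  have hm := hq.1
  have : NeZero m := ⟨by omega⟩
  refine ⟨pdir q (i / N), PN_succ hN hq i, ?_⟩
  refine (Enl.encloses_qN hN hq hS 0 _ _).1 ⟨((i : ℕ) : ZMod (m * N)), by rw [qN_nat hN, add_zero],
    ?_⟩
  have e : ((i : ℕ) : ZMod (m * N)) + 1 = ((i + 1 : ℕ) : ZMod (m * N)) := by push_cast; rfl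
  rw [e, qN_nat hN, add_zero, PN_succ hN hq]

/-- Around a boundary site the neighbouring boundary sites are joined outside of the domain. -/
theorem arnd_join {D : Finset (ℤ × ℤ)} {n : ℕ} {q : ZMod n → ℤ × ℤ} (hq : IsPolygon q)
    (hD : Encloses q D) (j : ZMod n) {F : Set (ℤ × ℤ)}
    (hop : ∀ t : Fin 4, face (q j) t ∉ D → face (q j) t ∈ F) :
    ReflTransGen (PStep F) (q (j - 1)) (q (j + 1)) := by
  obtain ⟨r1, hr1⟩ := hq.2.2 (j - 1)
  obtain ⟨r2, hr2⟩ := hq.2.2 j
  rw [sub_add_cancel] at hr1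
  have e1 : q (j - 1) = q j + dir (r1 + 2) := by
    rw [hr1, add_assoc]
    have : dir r1 + dir (r1 + 2) = 0 := by
      fin_cases r1 <;> rfl
    rw [this, add_zero]
  have hin := (hD (q (j - 1)) r1).1 ⟨j - 1, rfl, by
    rw [sub_add_cancel]; exact hr1⟩
  have e2 : face (q (j - 1)) (r1 - 1) = face (q j) (r1 + 2) := by
    rw [e1, H718.face_back]
  have h0 : face (q j) (r1 + 2) ∉ D := by rw [← e2]; exact hin.2
  have hout : ∀ t : Fin 4, face (q j) t ∉ D → t + 1 ≠ r2 → face (q j) (t + 1) ∉ D := by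
    intro t h1 h2 h3
    have h4 := H718.side_out hq hD h3 (by rw [add_sub_cancel_right]; exact h1)
    rw [hr2] at h4
    exact h2 (dirInj (add_left_cancel h4)).symm
  rw [e1, hr2]
  set s := r1 + 2 with hs
  have hne : r2 ≠ s := by
    intro h
    have h1 : q (j + 1) = q (j - 1) := by rw [hr2, e1, h]
    have h2 := hq.2.1 h1
    have h5 : ((2 : ℕ) : ZMod n) = 0 := by
      push_cast
      linear_combination h2
    rw [ZMod.natCast_eq_zero_iff] at h5
    have := Nat.le_of_dvd (by norm_num) h5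
    have := hq.1
    omega
  have st : ∀ t : Fin 4, face (q j) t ∉ D → PStep F (q j + dir t) (q j + dir (t + 1)) :=
    fun t ht => H718.step_face (hop t ht)
  have g1 := st s h0
  by_cases c1 : s + 1 = r2
  · rw [← c1]
    exact ReflTransGen.single g1
  · have h1 := hout s h0 c1
    have g2 := st _ h1
    by_cases c2 : s + 1 + 1 = r2
    · rw [← c2]
      exact (ReflTransGen.single g1).tail g2
    · have h2 := hout _ h1 c2
      have g3 := st _ h2
      have c3 : s + 1 + 1 + 1 = r2 := by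
        clear g1 g2 g3 h1 h2 h0 hout st hs hin hr1 hr2 e1 e2 hop
        clear_value s
        revert s r2
        decide
      rw [← c3]
      exact ((ReflTransGen.single g1).tail g2).tail g3

/-- One step of the walk along the boundary. -/
theorem step_PN (hN : 0 < N) (hq : IsPolygon q) (hS : Encloses q S) {i : ℕ} {F : Set (ℤ × ℤ)}
    (hF : ∀ v, v ∉ enl S N → Cor v (PN q N (i + 1)) → v ∈ F) :
    ReflTransGen (PStep F) (PN q N i) (PN q N (i + 2)) := by
  have hm := hq.1
  have : NeZero m := ⟨by omega⟩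
  have h := arnd_join (Enl.isPolygon_qN hN hq 0) (Enl.encloses_qN hN hq hS 0)
    ((i + 1 : ℕ) : ZMod (m * N)) (F := F) (by
      rw [qN_nat hN, add_zero]
      exact fun t ht => hF _ ht (cor_face _ _))
  have e1 : ((i + 1 : ℕ) : ZMod (m * N)) - 1 = ((i : ℕ) : ZMod (m * N)) := by push_cast; ring
  have e2 : ((i + 1 : ℕ) : ZMod (m * N)) + 1 = ((i + 2 : ℕ) : ZMod (m * N)) := by push_cast; ring
  rw [e1, e2, qN_nat hN, qN_nat hN, add_zero, add_zero] at h
  exact h

/-- The walk along the boundary. -/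
theorem walk_PN (hN : 0 < N) (hq : IsPolygon q) (hS : Encloses q S) {i : ℕ} {F : Set (ℤ × ℤ)}
    (b : ℕ) (hF : ∀ a < b, ∀ v, v ∉ enl S N → Cor v (PN q N (i + 2 * a + 1)) → v ∈ F) :
    ReflTransGen (PStep F) (PN q N i) (PN q N (i + 2 * b)) := by
  induction b with
  | zero => exact ReflTransGen.refl
  | succ b ih =>
    refine (ih fun a ha => hF a (by omega)).trans ?_
    exact step_PN hN hq hS (hF b (by omega))

end gen

end Vale.Agent.P167.H369
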