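import Vale.Agent.P167.H369.RootA

/-!
# P167, `0 < q < 4`, [GEO]: the line of a shape and the configuration outside

Coordinates relative to `d`.
-/

set_option autoImplicit false

namespace Vale.Agent.P167.H369

open Finset Relation Vale.Agent.P167 Vale.Agent.P167.FK
open Vale.Agent.P145.FB (PStep)
open Vale.Agent.P167.FKA (Cor)
open Vale.Agent.P167.E6 (IsPolygon Encloses dir face)
open Vale.Agent.P167.H718 (OutC etaW mem_opW Chordless dirInj)
open Vale.Agent.P167.H825 (enl pdir)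
open Vale.Agent.P167.QT (Sh4 dom ext arcc rot)
open Vale.Agent.P167.Enl (PN qN qN_nat PN_lin PN_succ PN_add_l PN_inj pdir_step mem_enl_div dir0 dir1
  dir2 dir3 face0 face1 face2 face3)
open Vale.Agent.P167.H72.SD (rot_poly rot_encl cor_face cor_face_dir')
open Vale.Agent.P167.H364 (rT ra)

variable {P : Sh4} {N : ℕ}

/-- The configuration outside of the shape, coordinates relative to `d`. -/
noncomputable def xt (N : ℕ) (P : Sh4) : Cfg :=
  etaW (enl P.S N) (qN (rot P) N (N / 2)) ((P.m - P.k) * N)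

/-- The distance from `d` to `b`. -/
def lb (P : Sh4) (N : ℕ) : ℤ := (((P.m - P.l) * N + N / 2 : ℕ) : ℤ)

theorem pdir_line (h : P.Ok 2) {a : ℕ} (h1 : P.j ≤ a + 2) (h2 : a ≤ P.m) : pdir P.q a = 0 := by
  have e1 := h.line a h1 (by omega)
  have e2 := h.line (a + 1) (by omega) (by omega)
  have e3 := pdir_step h.poly a
  have e4 : ((a : ℕ) : ZMod P.m) + 1 = ((a + 1 : ℕ) : ZMod P.m) := by push_cast; rfl
  rw [e4, e1, e2, Prod.ext_iff] at e3
  generalize pdir P.q a = d at e3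
  fin_cases d <;> simp only [Fin.zero_eta, Fin.mk_one, Fin.reduceFinMk, dir0, dir1, dir2, dir3,
      Prod.fst_add, Prod.snd_add] at e3 ⊢ <;> (first | rfl | (exfalso; omega))

/-- The sites of the line. -/
theorem PN_line (h : P.Ok 2) (hN : 0 < N) {i : ℕ} (h1 : P.j * N ≤ i + 2 * N)
    (h2 : i < (P.m + 1) * N) : PN P.q N i = ((i : ℤ) - P.l * N, 0) := by
  have hi := Nat.div_add_mod' i N
  have hr := Nat.mod_lt i hN
  set a := i / N
  set r := i % N
  have ha : P.j ≤ a + 2 := by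
    by_contra hc
    push Not at hc
    have : (a + 3) * N ≤ P.j * N := Nat.mul_le_mul_right N hc
    rw [Nat.add_mul] at this
    omega
  have ha' : a ≤ P.m := by
    by_contra hc
    push Not at hc
    have : (P.m + 1) * N ≤ a * N := Nat.mul_le_mul_right N hc
    omega
  rw [← hi, PN_lin hN hr, pdir_line h ha ha', h.line a ha (by omega)]
  simp only [dir0, Prod.smul_mk, smul_eq_mul, mul_one, mul_zero, Prod.mk_add_mk, add_zero,
    Prod.mk.injEq, and_true]
  push_cast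
  ring

/-- The squares above and below the line. -/
theorem S_line (h : P.Ok 2) {X : ℤ} (h1 : (P.j : ℤ) - P.l - 2 ≤ X) (h2 : X ≤ P.m - P.l) :
    (X, 0) ∈ P.S ∧ (X, -1) ∉ P.S := by
  have h3 := h.k_lt
  have h4 := h.j_lt
  obtain ⟨a, ha⟩ : ∃ a : ℕ, (a : ℤ) = X + P.l := ⟨(X + P.l).toNat, Int.toNat_of_nonneg (by omega)⟩
  have e1 := h.line a (by omega) (by omega)
  have e2 := h.line (a + 1) (by omega) (by omega)
  have h5 := (h.encl (X, 0) 0).1 ⟨(a : ZMod P.m), by
      rw [e1, Prod.mk.injEq]; omega, by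
      have e4 : ((a : ℕ) : ZMod P.m) + 1 = ((a + 1 : ℕ) : ZMod P.m) := by push_cast; rfl
      rw [e4, e2, dir0, Prod.mk_add_mk, Prod.mk.injEq]
      exact ⟨by push_cast; omega, rfl⟩⟩
  rw [show (0 : Fin 4) - 1 = 3 from rfl, face0, face3] at h5
  simpa using h5

theorem enl_above (h : P.Ok 2) (hN : 0 < N) {x y : ℤ} (h1 : ((P.j : ℤ) - P.l - 2) * N ≤ x)
    (h2 : x < ((P.m : ℤ) - P.l + 1) * N) (h3 : 0 ≤ y) (h4 : y < N) : (x, y) ∈ enl P.S N := by
  have hN' : (0 : ℤ) < N := by exact_mod_cast hN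
  rw [mem_enl_div hN]
  have e1 : y / (N : ℤ) = 0 := Int.ediv_eq_zero_of_lt h3 h4
  simp only
  rw [e1]
  refine (S_line h ?_ ?_).1
  · rw [Int.le_ediv_iff_mul_le hN']
    exact h1
  · have : x / (N : ℤ) < (P.m : ℤ) - P.l + 1 := by
      rw [Int.ediv_lt_iff_lt_mul hN']
      exact h2
    omega

theorem enl_below (h : P.Ok 2) (hN : 0 < N) {x y : ℤ} (h1 : ((P.j : ℤ) - P.l - 2) * N ≤ x)
    (h2 : x < ((P.m : ℤ) - P.l + 1) * N) (h3 : y < 0) (h4 : -(N : ℤ) ≤ y) :
    (x, y) ∉ enl P.S N := by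
  have hN' : (0 : ℤ) < N := by exact_mod_cast hN
  rw [mem_enl_div hN]
  have e1 : y / (N : ℤ) = -1 := by
    have := Int.mul_ediv_add_emod y N
    have h5 := Int.emod_nonneg y hN'.ne'
    have h6 := Int.emod_lt_of_pos y hN'
    have h7 : y / (N : ℤ) < 0 := by
      rw [Int.ediv_lt_iff_lt_mul hN']
      omega
    have h8 : -1 ≤ y / (N : ℤ) := by
      rw [Int.le_ediv_iff_mul_le hN']
      omega
    omega
  simp only
  rw [e1]
  refine (S_line h ?_ ?_).2
  · rw [Int.le_ediv_iff_mul_le hN']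
    exact h1
  · have : x / (N : ℤ) < (P.m : ℤ) - P.l + 1 := by
      rw [Int.ediv_lt_iff_lt_mul hN']
      exact h2
    omega

/-! ### numbers -/

/-- The products of the indices with `N`. -/
structure Nm (P : Sh4) (N : ℕ) : Prop where
  kN : N ≤ P.k * N
  kj : P.k * N + 3 * N ≤ P.j * N
  jl : P.j * N + 2 * N ≤ P.l * N
  lm : P.l * N + 2 * N ≤ P.m * N

theorem nm (h : P.Ok 2) : Nm P N := by
  have h1 := h.k_pos
  have h2 := h.k_lt
  have h3 := h.j_lt
  have h4 := h.l_lt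
  refine ⟨?_, ?_, ?_, ?_⟩
  · exact Nat.le_mul_of_pos_left N h1
  · rw [← Nat.add_mul]; exact Nat.mul_le_mul_right N (by omega)
  · rw [← Nat.add_mul]; exact Nat.mul_le_mul_right N (by omega)
  · rw [← Nat.add_mul]; exact Nat.mul_le_mul_right N (by omega)

theorem lb_eq (h : P.Ok 2) : lb P N = (P.m : ℤ) * N - P.l * N + ((N / 2 : ℕ) : ℤ) := by
  have h4 := h.l_lt
  unfold lb
  push_cast
  rw [Nat.cast_sub (by omega)]
  ring

/-- There is no boundary site below the line. -/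
theorem no_site (h : P.Ok 2) (hN : 16 ≤ N) {i : ℕ} (h1 : -2 ≤ (PN P.q N i).1)
    (h2 : (PN P.q N i).1 ≤ lb P N + 3) (h3 : -4 ≤ (PN P.q N i).2) (h4 : (PN P.q N i).2 < 0) :
    False := by
  have hn := nm (N := N) h
  have hlb := lb_eq (N := N) h
  have h5 := hn.jl
  have h6 := hn.lm
  have hN0 : 0 < N := by omega
  obtain ⟨d, -, hd, -⟩ := PN_side hN0 h.poly h.encl i
  have e1 : ((P.j : ℤ) - P.l - 2) * N = P.j * N - P.l * N - 2 * N := by ring
  have e2 : ((P.m : ℤ) - P.l + 1) * N = P.m * N - P.l * N + N := by ring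
  have g5 : (P.j : ℤ) * N + 2 * N ≤ P.l * N := by exact_mod_cast h5
  generalize PN P.q N i = z at *
  obtain ⟨x, y⟩ := z
  simp only at h1 h2 h3 h4
  have hf : x - 1 ≤ (face (x, y) d).1 ∧ (face (x, y) d).1 ≤ x ∧ y - 1 ≤ (face (x, y) d).2 ∧
      (face (x, y) d).2 ≤ y := by
    fin_cases d <;> simp only [Fin.zero_eta, Fin.mk_one, Fin.reduceFinMk, face0, face1, face2,
      face3] <;> omega
  generalize face (x, y) d = w at hd hf
  obtain ⟨x', y'⟩ := w
  simp only at hf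
  exact enl_below h hN0 (by rw [e1]; omega) (by rw [e2]; omega) (by omega) (by omega) hd

/-! ### the configuration outside -/

theorem xt_true (h : P.Ok 2) (hN : 0 < N) {v : ℤ × ℤ} : xt N P v = true ↔
    v ∉ enl P.S N ∧ ∃ i : ℕ, N / 2 < i ∧ i < P.k * N + N / 2 ∧
      ¬ Even ((PN P.q N i).1 + (PN P.q N i).2) ∧ Cor v (PN P.q N i) := by
  have h1 := h.k_pos
  have h2 := h.k_lt
  have h3 := h.j_lt
  have h4 := h.l_lt
  have hK : (P.m - P.k) * N + P.k * N = P.m * N := by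
    rw [← Nat.add_mul]
    congr 1
    omega
  have hrot : ∀ j : ℕ, qN (rot P) N (N / 2) (j : ZMod (P.m * N)) = PN P.q N (j + N / 2 + P.k * N) :=
    fun j => H259.S.qN_rot (by omega) hN j
  unfold xt etaW
  rw [decide_eq_true_iff, mem_opW]
  constructor
  · rintro ⟨⟨j, j1, j2, j3, r, rfl⟩, h5⟩
    rw [hrot] at j3 h5 ⊢
    have e : j + N / 2 + P.k * N = (j + N / 2 + P.k * N - P.m * N) + P.m * N := by omega
    rw [e, PN_add_l hN] at j3 h5 ⊢
    exact ⟨h5, _, by omega, by omega, j3, cor_face _ _⟩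
  · rintro ⟨h5, i, i1, i2, i3, i4⟩
    obtain ⟨r, hr⟩ := face_of_cor i4
    have e : (i + (P.m - P.k) * N - N / 2) + N / 2 + P.k * N = i + P.m * N := by omega
    refine ⟨⟨i + (P.m - P.k) * N - N / 2, by omega, by omega, ?_, r, ?_⟩, h5⟩
    · rw [hrot, e, PN_add_l hN]
      exact i3
    · rw [hrot, e, PN_add_l hN]
      exact hr

theorem xt_free (h : P.Ok 2) (hN : 4 ≤ N) {i : ℕ} (h1 : P.k * N + N / 2 + 2 ≤ i)
    (h2 : i + 2 ≤ P.m * N + N / 2) {y : ℤ × ℤ} (hy : Cor y (PN P.q N i)) : xt N P y = false :=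
  H259.S.etaW_far (S := P.S) h.poly hN (k := P.k) (by have := h.k_lt; have := h.j_lt; have := h.l_lt; omega)
    h1 h2 hy

end Vale.Agent.P167.H369
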