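import Vale.Agent.P167.H369.RootB
import Vale.Agent.P167.H375.ShT

/-!
# P167, `0 < q < 4`, [GEO]: the banks of a shape

ROW GEO:P.
-/

set_option autoImplicit false

namespace Vale.Agent.P167.H369

open Finset Relation Vale.Agent.P167 Vale.Agent.P167.FK
open Vale.Agent.P145.FB (PStep)
open Vale.Agent.P167.FKA (Cor)
open Vale.Agent.P167.E6 (IsPolygon Encloses dir face)
open Vale.Agent.P167.H718 (OutC etaW mem_opW Chordless dirInj)
open Vale.Agent.P167.H825 (enl pdir)
open Vale.Agent.P167.QT (Sh4 dom ext arcc rot)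
open Vale.Agent.P167.Enl (PN qN qN_nat PN_lin PN_succ PN_add_l PN_inj pdir_step mem_enl_div dir0 dir1
  dir2 dir3 face0 face1 face2 face3)
open Vale.Agent.P167.H72.SD (rot_poly rot_encl cor_face cor_face_dir' mem_dom' mem_dom_add cor_add
  steps_add even_add Wr dom_joined)
open Vale.Agent.P167.H364 (rT ra Bd CJ OJ Win)

variable {P : Sh4} {N : ℕ}

/-! ### the window -/

theorem xt_win (h : P.Ok 2) (hN : 16 ≤ N) (h4 : 4 ∣ N) {x y : ℤ} (h1 : -2 ≤ x)
    (h2 : x ≤ lb P N + 2) (h3 : -4 ≤ y) (h5 : y < 0) :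
    (xt N P (x, y) = true ↔ y = -1 ∧ lb P N ≤ x) := by
  have hN0 : 0 < N := by omega
  have hn := nm (N := N) h
  have hlb := lb_eq (N := N) h
  have g1 : (N : ℤ) ≤ P.k * N := by exact_mod_cast hn.kN
  have g2 : (P.k : ℤ) * N + 3 * N ≤ P.j * N := by exact_mod_cast hn.kj
  have g3 : (P.j : ℤ) * N + 2 * N ≤ P.l * N := by exact_mod_cast hn.jl
  have g4 : (P.l : ℤ) * N + 2 * N ≤ P.m * N := by exact_mod_cast hn.lm
  have e1 : ((P.j : ℤ) - P.l - 2) * N = P.j * N - P.l * N - 2 * N := by ring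
  have e2 : ((P.m : ℤ) - P.l + 1) * N = P.m * N - P.l * N + N := by ring
  have e3 : (P.m + 1) * N = P.m * N + N := by ring
  rw [xt_true h hN0]
  constructor
  · rintro ⟨-, i, i1, i2, i3, i4⟩
    have hs := no_site (i := i) h hN
    have hs' : ∀ a : ℕ, PN P.q N i = PN P.q N a → ((P.m * N : ℕ) : ℤ) ∣ (i : ℤ) - a :=
      fun a => PN_dvd hN0 h.poly
    generalize PN P.q N i = z at *
    obtain ⟨X, Y⟩ := z
    obtain ⟨c1, c2⟩ := i4
    simp only at c1 c2 hs
    have hY : ¬ Y < 0 := fun hY => hs (by omega) (by omega) (by omega) hY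
    obtain ⟨a, ha⟩ : ∃ a : ℕ, (a : ℤ) = X + P.l * N :=
      ⟨(X + P.l * N).toNat, Int.toNat_of_nonneg (by omega)⟩
    have hY0 : Y = 0 := by omega
    have ha2 : a < (P.m + 1) * N := by
      rw [e3]
      have : (a : ℤ) < P.m * N + N := by omega
      exact_mod_cast this
    have ha1 : P.j * N ≤ a + 2 * N := by
      have : (P.j : ℤ) * N ≤ a + 2 * N := by omega
      exact_mod_cast this
    obtain ⟨t, ht⟩ := hs' a (by
      rw [PN_line h hN0 ha1 ha2, hY0, ha, add_sub_cancel_right])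
    have i1' : ((N / 2 : ℕ) : ℤ) < i := by exact_mod_cast i1
    have i2' : (i : ℤ) < P.k * N + ((N / 2 : ℕ) : ℤ) := by exact_mod_cast i2
    have t1 : t < 0 := by
      by_contra hc
      push Not at hc
      have : 0 ≤ ((P.m * N : ℕ) : ℤ) * t := mul_nonneg (by positivity) hc
      omega
    have hmN : ((P.m * N : ℕ) : ℤ) = (P.m : ℤ) * N := by push_cast; rfl
    rw [hmN] at ht
    have t2 : -2 < t := by
      by_contra hc
      push Not at hc
      have : (P.m : ℤ) * N * t ≤ (P.m : ℤ) * N * (-2) :=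
        mul_le_mul_of_nonneg_left hc (by positivity)
      omega
    have t3 : t = -1 := by omega
    rw [t3] at ht
    omega
  · rintro ⟨rfl, h6⟩
    refine ⟨enl_below h hN0 (by rw [e1]; omega) (by rw [e2]; omega) (by norm_num) (by omega), ?_⟩
    have hpar : lb P N % 2 = 0 := by
      obtain ⟨c, rfl⟩ := h4
      rw [hlb]
      have : ((4 * c / 2 : ℕ) : ℤ) = 2 * c := by
        rw [show 4 * c / 2 = 2 * c by omega]; push_cast; rfl
      rw [this]
      push_cast
      rw [show (P.m : ℤ) * (4 * c) - P.l * (4 * c) + 2 * c = 2 * (2 * (P.m * c) - 2 * (P.l * c) + c) by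
        ring]
      omega
    obtain ⟨X, hX, hX'⟩ : ∃ X : ℤ, (X = x ∨ X = x + 1) ∧ X % 2 = 1 := by
      rcases Int.emod_two_eq_zero_or_one x with h7 | h7
      · exact ⟨x + 1, Or.inr rfl, by omega⟩
      · exact ⟨x, Or.inl rfl, h7⟩
    obtain ⟨i, hi⟩ : ∃ i : ℕ, (i : ℤ) = X - lb P N + ((N / 2 : ℕ) : ℤ) :=
      ⟨(X - lb P N + ((N / 2 : ℕ) : ℤ)).toNat, Int.toNat_of_nonneg (by omega)⟩
    have hz : PN P.q N i = (X, 0) := by
      rw [← PN_add_l hN0, PN_line h hN0]
      · rw [Prod.mk.injEq]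
        refine ⟨?_, rfl⟩
        push_cast
        omega
      · have : (P.j : ℤ) * N ≤ i + P.m * N + 2 * N := by omega
        exact_mod_cast this
      · rw [e3]
        have : (i : ℤ) + P.m * N < P.m * N + N := by omega
        exact_mod_cast this
    refine ⟨i, ?_, ?_, ?_, ?_⟩
    · have : ((N / 2 : ℕ) : ℤ) < i := by omega
      exact_mod_cast this
    · have : (i : ℤ) < P.k * N + ((N / 2 : ℕ) : ℤ) := by omega
      exact_mod_cast this
    · rw [hz, Int.even_iff]
      simp only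
      omega
    · rw [hz]
      exact ⟨hX, Or.inr rfl⟩

/-! ### the free walk -/

theorem mem_rT {t v : ℤ × ℤ} {l : ℤ} : v ∈ rT t l ↔ (v.1 = t.1 ∧ v.2 = t.2 - 1) ∨
    (t.1 < v.1 ∧ v.1 < t.1 + l ∧ v.2 = t.2 - 2) := by
  unfold rT
  rw [Finset.mem_insert, Finset.mem_image]
  obtain ⟨a, b⟩ := v
  constructor
  · rintro (h | ⟨x, hx, h⟩)
    · rw [Prod.mk.injEq] at h
      exact Or.inl h
    · rw [Prod.mk.injEq] at h
      rw [Finset.mem_Ioo] at hx
      right
      simp only
      omega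
  · rintro (⟨h1, h2⟩ | ⟨h1, h2, h3⟩)
    · exact Or.inl (by rw [Prod.mk.injEq]; exact ⟨h1, h2⟩)
    · exact Or.inr ⟨a, Finset.mem_Ioo.2 ⟨h1, h2⟩, by rw [Prod.mk.injEq]; exact ⟨rfl, h3.symm⟩⟩

/-- The odd sites of the free arc before `d` are joined to the left neighbour of `d`. -/
theorem free_walk (h : P.Ok 2) (hN : 16 ≤ N) (h4 : 4 ∣ N) {i : ℕ} (h1 : P.k * N + N / 2 < i)
    (h2 : i < P.l * N) (hi : i % 2 = 1) :
    CJ (enl P.S N) (xt N P) (0, 0) (lb P N) (PN P.q N i) (-1, 0) := by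
  have hN0 : 0 < N := by omega
  have hn := nm (N := N) h
  have hlb := lb_eq (N := N) h
  have g1 : (N : ℤ) ≤ P.k * N := by exact_mod_cast hn.kN
  have g2 : (P.k : ℤ) * N + 3 * N ≤ P.j * N := by exact_mod_cast hn.kj
  have g3 : (P.j : ℤ) * N + 2 * N ≤ P.l * N := by exact_mod_cast hn.jl
  have g4 : (P.l : ℤ) * N + 2 * N ≤ P.m * N := by exact_mod_cast hn.lm
  have e3 : (P.m + 1) * N = P.m * N + N := by ring
  have k1 := hn.kN
  have k2 := hn.kj
  have k3 := hn.jl
  have k4 := hn.lm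
  have hle : P.l * N % 2 = 0 := by
    obtain ⟨c, rfl⟩ := h4
    rw [show P.l * (4 * c) = 2 * (2 * (P.l * c)) by ring]
    omega
  have hkk : (P.k * N + N / 2) % 2 = 0 := by
    obtain ⟨c, rfl⟩ := h4
    rw [show P.k * (4 * c) = 2 * (2 * (P.k * c)) by ring]
    omega
  have hend : PN P.q N (P.l * N - 1) = (-1, 0) := by
    rw [PN_line h hN0 (by omega) (by rw [e3]; omega), Prod.mk.injEq]
    refine ⟨?_, rfl⟩
    rw [Nat.cast_sub (by omega)]
    push_cast
    ring
  have hb : i + 2 * ((P.l * N - 1 - i) / 2) = P.l * N - 1 := by omega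
  have key := walk_PN (F := {v | v ∉ enl P.S N ∧ xt N P v = false ∧ v ∉ rT (0, 0) (lb P N) ∧
    v ≠ ra (0, 0) (lb P N)}) (i := i) hN0 h.poly h.encl ((P.l * N - 1 - i) / 2) ?_
  · rw [hb, hend] at key
    exact key
  · intro a ha v hv hc
    have hlt : i + 2 * a + 1 + 2 ≤ P.l * N := by omega
    have b2 : v = (0, -1) → False := by
      intro hv0
      rw [hv0] at hc
      obtain ⟨c1, c2⟩ := hc
      simp only at c1 c2
      have hs := no_site (i := i + 2 * a + 1) h hN
      have z1 : PN P.q N (P.l * N) = (0, 0) := by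
        rw [PN_line h hN0 (by omega) (by rw [e3]; omega), Prod.mk.injEq]
        refine ⟨?_, rfl⟩
        push_cast
        ring
      have z2 : PN P.q N (P.l * N + 1) = (1, 0) := by
        rw [PN_line h hN0 (by omega) (by rw [e3]; omega), Prod.mk.injEq]
        refine ⟨?_, rfl⟩
        push_cast
        ring
      have n1 : PN P.q N (i + 2 * a + 1) ≠ PN P.q N (P.l * N) := by
        intro he
        have := PN_inj' hN0 h.poly he (by omega) (by omega)
        omega
      have n2 : PN P.q N (i + 2 * a + 1) ≠ PN P.q N (P.l * N + 1) := by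
        intro he
        have := PN_inj' hN0 h.poly he (by omega) (by omega)
        omega
      rw [z1] at n1
      rw [z2] at n2
      generalize PN P.q N (i + 2 * a + 1) = z at *
      obtain ⟨X, Y⟩ := z
      simp only at c1 c2 hs
      rw [Ne, Prod.mk.injEq] at n1 n2
      have hY : ¬ Y < 0 := fun hY => hs (by omega) (by omega) (by omega) hY
      omega
    have b3 : v.2 = -2 → 0 ≤ v.1 → v.1 ≤ lb P N → False := by
      intro v2 v1 v3
      obtain ⟨c1, c2⟩ := hc
      exact no_site (i := i + 2 * a + 1) h hN (by omega) (by omega) (by omega) (by omega)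
    refine ⟨hv, xt_free h (by omega) (i := i + 2 * a + 1) (by omega) (by omega) hc, ?_, ?_⟩
    · rw [mem_rT]
      rintro (⟨c1, c2⟩ | ⟨c1, c2, c3⟩)
      · exact b2 (Prod.ext c1 (by simpa using c2))
      · exact b3 (by simpa using c3) (by simpa using c1.le) (by
          have : v.1 < 0 + lb P N := c2
          omega)
    · intro he
      rw [he] at b3
      exact b3 (by simp [ra]) (by simp only [ra]; omega) (by simp only [ra]; omega)

end Vale.Agent.P167.H369
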