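import Vale.Agent.P167.H369.RootC
import Vale.Agent.P167.H446.G.Flat2

/-!
# P167, `0 < q < 4`, [GEO]: the banks of a shape, the boundary of the shape

ROW GEO:P.
-/

set_option autoImplicit false

namespace Vale.Agent.P167.H369

open Finset Relation Vale.Agent.P167 Vale.Agent.P167.FK
open Vale.Agent.P145.FB (PStep)
open Vale.Agent.P167.FKA (Cor)
open Vale.Agent.P167.E6 (IsPolygon Encloses dir face)
open Vale.Agent.P167.H718 (OutC etaW mem_opW Chordless dirInj)
open Vale.Agent.P167.H825 (enl pdir)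
open Vale.Agent.P167.QT (Sh4 dom ext arcc rot)
open Vale.Agent.P167.Enl (PN qN qN_nat PN_lin PN_succ PN_add_l PN_inj pdir_step mem_enl_div dir0 dir1
  dir2 dir3 face0 face1 face2 face3)
open Vale.Agent.P167.H72.SD (rot_poly rot_encl cor_face cor_face_dir' mem_dom' mem_dom_add cor_add
  steps_add even_add Wr dom_joined)
open Vale.Agent.P167.H364 (rT ra Bd CJ OJ Win)

variable {P : Sh4} {N : ℕ} {v₀ : ℤ × ℤ}

/-- A site which is a corner of a square of the domain and of a square outside is a boundary site. -/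
theorem exists_idx (h : P.Ok 2) (hN : 0 < N) {s x z : ℤ × ℤ} (hx : x ∈ enl P.S N) (hxs : Cor x s)
    (hz : z ∉ enl P.S N) (hzs : Cor z s) :
    ∃ i : ℕ, P.k * N + N / 2 ≤ i ∧ i < P.k * N + N / 2 + P.m * N ∧ PN P.q N i = s := by
  have hm := h.poly.1
  have : NeZero P.m := ⟨by omega⟩
  have hmN : 0 < P.m * N := Nat.mul_pos (by omega) hN
  have : NeZero (P.m * N) := ⟨by omega⟩
  obtain ⟨r, hr⟩ := face_of_cor hzs
  obtain ⟨i, hi⟩ := H718.exists_bd (Enl.isPolygon_qN hN h.poly 0)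
    (Enl.encloses_qN hN h.poly h.encl 0) (s := s) (BR.mem_sites.2 ⟨x, hx, hxs⟩) (r := r)
    (by rw [← hr]; exact hz)
  have h1 := ZMod.val_lt i
  have h2 : PN P.q N i.val = s := by
    rw [← hi]
    rw [show qN P.q N 0 i = PN P.q N (i.val + 0) from rfl, add_zero]
  have hn := nm (N := N) h
  have k1 := hn.kN
  have k2 := hn.kj
  have k3 := hn.jl
  have k4 := hn.lm
  rcases Nat.lt_or_ge i.val (P.k * N + N / 2) with h3 | h3
  · exact ⟨i.val + P.m * N, by omega, by omega, by rw [PN_add_l hN]; exact h2⟩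
  · exact ⟨i.val, h3, by omega, h2⟩

/-- The odd sites with a closed square outside. -/
theorem nd0 (h : P.Ok 2) (hN : 16 ≤ N) (h4 : 4 ∣ N) {s x z : ℤ × ℤ} (hs : (s.1 + s.2) % 2 = 1)
    (hx : x ∈ enl P.S N) (hxs : Cor x s) (hz : z ∉ enl P.S N) (hzs : Cor z s)
    (hf : xt N P z = false) : (s.2 = 0 ∧ 0 < s.1 ∧ s.1 < lb P N) ∨
      CJ (enl P.S N) (xt N P) (0, 0) (lb P N) s (-1, 0) := by
  have hN0 : 0 < N := by omega
  have hn := nm (N := N) h
  have hlb := lb_eq (N := N) h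
  have k1 := hn.kN
  have k2 := hn.kj
  have k3 := hn.jl
  have k4 := hn.lm
  have e3 : (P.m + 1) * N = P.m * N + N := by ring
  have hle : P.l * N % 2 = 0 ∧ P.m * N % 2 = 0 ∧ N / 2 % 2 = 0 := by
    obtain ⟨c, rfl⟩ := h4
    rw [show P.l * (4 * c) = 2 * (2 * (P.l * c)) by ring,
      show P.m * (4 * c) = 2 * (2 * (P.m * c)) by ring]
    omega
  have hkk : (P.k * N + N / 2) % 2 = 0 := by
    obtain ⟨c, rfl⟩ := h4
    rw [show P.k * (4 * c) = 2 * (2 * (P.k * c)) by ring]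
    omega
  obtain ⟨i, i1, i2, rfl⟩ := exists_idx h hN0 hx hxs hz hzs
  have hpar := PN_par hN0 (Dvd.dvd.trans (by norm_num) h4) h.poly i
  have hodd : i % 2 = 1 := by omega
  have i3 : i ≤ P.m * N + N / 2 := by
    by_contra hc
    push Not at hc
    have h5 : xt N P z = true := by
      rw [xt_true h hN0]
      refine ⟨hz, i - P.m * N, by omega, by omega, ?_, ?_⟩
      · rw [← PN_add_l hN0 (i - P.m * N), Nat.sub_add_cancel (by omega), Int.even_iff]
        omega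
      · rw [← PN_add_l hN0 (i - P.m * N), Nat.sub_add_cancel (by omega)]
        exact hzs
    rw [h5] at hf
    exact absurd hf (by simp)
  rcases Nat.lt_or_ge i (P.l * N) with h5 | h5
  · exact Or.inr (free_walk h hN h4 (by omega) h5 hodd)
  · left
    rw [PN_line h hN0 (by omega) (by rw [e3]; omega)]
    refine ⟨rfl, ?_, ?_⟩
    · simp only
      have : (P.l : ℤ) * N < i := by
        have : P.l * N < i := by omega
        exact_mod_cast this
      omega
    · simp only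
      rw [hlb]
      have : (i : ℤ) < P.m * N + ((N / 2 : ℕ) : ℤ) := by
        have : i < P.m * N + N / 2 := by omega
        exact_mod_cast this
      omega

/-! ### translation -/

theorem rtg_mono {F F' : Set (ℤ × ℤ)} (hF : F ⊆ F') {u v : ℤ × ℤ}
    (h : ReflTransGen (PStep F) u v) : ReflTransGen (PStep F') u v := by
  induction h with
  | refl => exact ReflTransGen.refl
  | tail _ h ih => exact ih.tail ⟨h.1, h.2.1, hF h.2.2⟩

theorem ext_eq {v : ℤ × ℤ} : ext N v₀ P v = xt N P (v - v₀) := rfl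

theorem mem_rT_add {v : ℤ × ℤ} {l : ℤ} : v + v₀ ∈ rT v₀ l ↔ v ∈ rT (0, 0) l := by
  rw [mem_rT, mem_rT]
  simp only [Prod.fst_add, Prod.snd_add]
  constructor <;> rintro (⟨h1, h2⟩ | ⟨h1, h2, h3⟩)
  · left; omega
  · right; omega
  · left; omega
  · right; omega

theorem ra_add {v : ℤ × ℤ} {l : ℤ} : v + v₀ = ra v₀ l ↔ v = ra (0, 0) l := by
  unfold ra
  obtain ⟨a, b⟩ := v
  obtain ⟨c, d⟩ := v₀
  rw [Prod.mk_add_mk, Prod.mk.injEq, Prod.mk.injEq]
  simp only
  constructor <;> rintro ⟨h1, h2⟩ <;> constructor <;> omega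

/-- Translation of the connections by closed squares. -/
theorem cj_add {l : ℤ} {s s' : ℤ × ℤ} (h : CJ (enl P.S N) (xt N P) (0, 0) l s s') :
    CJ (dom N v₀ P) (ext N v₀ P) v₀ l (s + v₀) (s' + v₀) := by
  refine steps_add (fun z => ?_) h
  simp only [Set.mem_ofPred_eq]
  rw [mem_dom_add, ext_eq, add_sub_cancel_right, mem_rT_add, ne_eq, ra_add]

end Vale.Agent.P167.H369

namespace Vale.Agent.P167.H364

open Finset Relation Vale.Agent.P167.FK
open Vale.Agent.P145.FB (PStep)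
open Vale.Agent.P167.FKA (Cor)
open Vale.Agent.P167.H825 (enl pdir)
open Vale.Agent.P167.QT (Sh4 dom arcc)
open Vale.Agent.P167.Enl (PN PN_add_l)
open Vale.Agent.P167.H72.SD (mem_dom' mem_dom_add cor_add even_add Wr dom_joined)
open Vale.Agent.P167.H369

/-- The distance from `d` to `b` in the enlarged shape. -/
def lP (P : Sh4) (N : ℕ) : ℤ := (((P.m - P.l) * N + N / 2 : ℕ) : ℤ)

/-- The squares outside of the window of the target are the translates. -/
theorem cor_sub' {v s a : ℤ × ℤ} (h : Cor v s) : Cor (v - a) (s - a) := by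
  have := cor_add (v := v - a) (s := s - a) (a := a)
  rw [sub_add_cancel, sub_add_cancel] at this
  exact this.1 h

/-- The end of the wired arc is wired. -/
theorem wr_b {P : Sh4} (h : P.Ok 2) {N : ℕ} (hN : 16 ≤ N) (h4 : 4 ∣ N) {v₀ : ℤ × ℤ}
    (hv : Even (v₀.1 + v₀.2)) : (v₀.1 + lP P N, v₀.2) ∈ Wr (dom N v₀ P) (QT.ext N v₀ P) := by
  have hN0 : 0 < N := by omega
  have hn := H369.nm (N := N) h
  have hlb := lb_eq (N := N) h
  have g3 : (P.j : ℤ) * N + 2 * N ≤ P.l * N := by exact_mod_cast hn.jl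
  have g4 : (P.l : ℤ) * N + 2 * N ≤ P.m * N := by exact_mod_cast hn.lm
  have e1 : ((P.j : ℤ) - P.l - 2) * N = P.j * N - P.l * N - 2 * N := by ring
  have e2 : ((P.m : ℤ) - P.l + 1) * N = P.m * N - P.l * N + N := by ring
  have hpar : lb P N % 2 = 0 := by
    obtain ⟨c, rfl⟩ := h4
    rw [hlb]
    have : ((4 * c / 2 : ℕ) : ℤ) = 2 * c := by
      rw [show 4 * c / 2 = 2 * c by omega]; push_cast; rfl
    rw [this]
    push_cast
    rw [show (P.m : ℤ) * (4 * c) - P.l * (4 * c) + 2 * c = 2 * (2 * (P.m * c) - 2 * (P.l * c) + c) by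
      ring]
    omega
  have hl : lP P N = lb P N := rfl
  refine ⟨?_, (v₀.1 + lP P N, v₀.2 - 1), ?_, ?_, Or.inl rfl, Or.inr ?_⟩
  · rw [Int.even_iff] at hv ⊢
    simp only
    omega
  · rw [mem_dom']
    have e : ((v₀.1 + lP P N, v₀.2 - 1) : ℤ × ℤ) - v₀ = (lb P N, -1) := by
      obtain ⟨a, b⟩ := v₀
      rw [Prod.mk_sub_mk, Prod.mk.injEq, hl]
      simp only
      constructor <;> ring
    rw [e]
    exact enl_below h hN0 (by rw [e1]; omega) (by rw [e2]; omega) (by norm_num) (by omega)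
  · rw [ext_eq]
    have e : ((v₀.1 + lP P N, v₀.2 - 1) : ℤ × ℤ) - v₀ = (lb P N, -1) := by
      obtain ⟨a, b⟩ := v₀
      rw [Prod.mk_sub_mk, Prod.mk.injEq, hl]
      simp only
      constructor <;> ring
    rw [e]
    exact (xt_win h hN h4 (by omega) (by omega) (by norm_num) (by norm_num)).2 ⟨rfl, le_rfl⟩
  · simp

/-- **The banks of an enlarged shape.** -/
theorem bd_shape {P : Sh4} (h : P.Ok 2) {N : ℕ} (hN : 16 ≤ N) (h4 : 4 ∣ N) {v₀ : ℤ × ℤ}
    (hv : Even (v₀.1 + v₀.2)) : Bd (dom N v₀ P) (QT.ext N v₀ P) v₀ (lP P N) := by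
  have hN0 : 0 < N := by omega
  have hn := H369.nm (N := N) h
  have hlb := lb_eq (N := N) h
  have g3 : (P.j : ℤ) * N + 2 * N ≤ P.l * N := by exact_mod_cast hn.jl
  have g4 : (P.l : ℤ) * N + 2 * N ≤ P.m * N := by exact_mod_cast hn.lm
  have e1 : ((P.j : ℤ) - P.l - 2) * N = P.j * N - P.l * N - 2 * N := by ring
  have e2 : ((P.m : ℤ) - P.l + 1) * N = P.m * N - P.l * N + N := by ring
  have hl : lP P N = lb P N := rfl
  have esub : ∀ x y : ℤ, ((x, y) : ℤ × ℤ) - v₀ = (x - v₀.1, y - v₀.2) := fun x y => rfl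
  refine ⟨⟨fun x y h1 h2 h3 h5 => ?_, fun x y h1 h2 h3 h5 => ?_⟩, ?_, fun s hs hx hz => ?_,
    fun s hs hx hz => ?_⟩
  · rw [mem_dom', esub]
    exact enl_below h hN0 (by rw [e1]; omega) (by rw [e2]; omega) (by omega) (by omega)
  · rw [ext_eq, esub, xt_win h hN h4 (by omega) (by omega) (by omega) (by omega)]
    constructor <;> rintro ⟨a1, a2⟩ <;> constructor <;> omega
  · exact H446.G.good_ext
  · obtain ⟨z, z1, z2, z3⟩ := hz
    have h6 := dom_joined h.poly h.encl (by omega : 2 ≤ N) hv (s := s)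
      (t := (v₀.1 + lP P N, v₀.2)) ⟨Int.even_iff.2 hs, z, z1, z2, z3⟩ (wr_b h hN h4 hv)
    refine rtg_mono (fun v hv' => ?_) h6
    exact ⟨fun hc => hv'.2 (mem_coe.2 hc), hv'.1⟩
  · obtain ⟨x, x1, x2⟩ := hx
    obtain ⟨z, z1, z2, z3⟩ := hz
    rw [Int.even_iff] at hv
    rcases nd0 h hN h4 (s := s - v₀) (x := x - v₀) (z := z - v₀)
      (by simp only [Prod.fst_sub, Prod.snd_sub]; omega) (mem_dom'.1 x1) (cor_sub' x2)
      (fun hc => z1 (mem_dom'.2 hc)) (cor_sub' z3) z2 with h6 | h6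
    · left
      simp only [Prod.fst_sub, Prod.snd_sub] at h6
      omega
    · right
      have h7 := cj_add (v₀ := v₀) h6
      rw [sub_add_cancel] at h7
      have e : ((-1, 0) : ℤ × ℤ) + v₀ = (v₀.1 - 1, v₀.2) := by
        obtain ⟨a, b⟩ := v₀
        rw [Prod.mk_add_mk, Prod.mk.injEq]
        simp only
        constructor <;> ring
      rw [e] at h7
      exact h7

/-- The odd sites of the free arc from `a` to `c` are joined to the left neighbour of `d`. -/
theorem arcc_shape {P : Sh4} (h : P.Ok 2) {N : ℕ} (hN : 16 ≤ N) (h4 : 4 ∣ N) {v₀ : ℤ × ℤ}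
    (hv : Even (v₀.1 + v₀.2)) {s : ℤ × ℤ} (hs : s ∈ arcc N v₀ P) (ho : (s.1 + s.2) % 2 = 1) :
    CJ (dom N v₀ P) (QT.ext N v₀ P) v₀ (lP P N) s (v₀.1 - 1, v₀.2) := by
  have hN0 : 0 < N := by omega
  have hn := H369.nm (N := N) h
  have k3 := hn.jl
  obtain ⟨i, i1, i2, rfl⟩ := hs
  have hpar := PN_par hN0 (Dvd.dvd.trans (by norm_num) h4) h.poly i
  rw [Int.even_iff] at hv
  have hkk : (P.k * N + N / 2) % 2 = 0 := by
    obtain ⟨c, rfl⟩ := h4
    rw [show P.k * (4 * c) = 2 * (2 * (P.k * c)) by ring]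
    omega
  simp only [Prod.fst_add, Prod.snd_add] at ho
  have h7 := cj_add (v₀ := v₀) (free_walk h hN h4 (i := i) (by omega) (by omega) (by omega))
  have e : ((-1, 0) : ℤ × ℤ) + v₀ = (v₀.1 - 1, v₀.2) := by
    obtain ⟨a, b⟩ := v₀
    rw [Prod.mk_add_mk, Prod.mk.injEq]
    simp only
    constructor <;> ring
  rw [e] at h7
  exact h7

/-- The squares above the line from `c - 1` to `b` are in the shape. -/
theorem row_shape {P : Sh4} (h : P.Ok 2) {N : ℕ} (hN : 16 ≤ N) {v₀ : ℤ × ℤ} {x y : ℤ}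
    (hx : v₀.1 + (((P.j : ℤ) - P.l) - 1) * N ≤ x) (hx' : x < v₀.1 + ((P.m : ℤ) - P.l + 1) * N)
    (hy : v₀.2 ≤ y) (hy' : y < v₀.2 + N) : (x, y) ∈ dom N v₀ P := by
  have e1 : ((P.j : ℤ) - P.l - 2) * N = ((P.j : ℤ) - P.l - 1) * N - N := by ring
  rw [mem_dom']
  exact enl_above h (by omega) (x := x - v₀.1) (y := y - v₀.2) (by rw [e1]; omega) (by omega)
    (by omega) (by omega)

/-- An even boundary site of the wired arc is wired. -/
theorem wr_arc {P : Sh4} (h : P.Ok 2) {N : ℕ} (hN : 16 ≤ N) (h4 : 4 ∣ N) {v₀ : ℤ × ℤ}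
    (hv : Even (v₀.1 + v₀.2)) {i : ℕ} (h1 : N / 2 ≤ i) (h2 : i ≤ P.k * N + N / 2) (hi : i % 2 = 0) :
    PN P.q N i + v₀ ∈ Wr (dom N v₀ P) (QT.ext N v₀ P) := by
  have hN0 : 0 < N := by omega
  have hn := H369.nm (N := N) h
  have k1 := hn.kN
  have hkk : (P.k * N + N / 2) % 2 = 0 ∧ N / 2 % 2 = 0 := by
    obtain ⟨c, rfl⟩ := h4
    rw [show P.k * (4 * c) = 2 * (2 * (P.k * c)) by ring]
    omega
  have hpar := PN_par hN0 (Dvd.dvd.trans (by norm_num) h4) h.poly
  have key : ∃ y, y ∉ enl P.S N ∧ xt N P y = true ∧ Cor y (PN P.q N i) := by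
    rcases Nat.lt_or_ge i (P.k * N + N / 2) with h3 | h3
    · obtain ⟨d, d1, -, d2⟩ := PN_side hN0 h.poly h.encl i
      refine ⟨_, d2, ?_, H72.SD.cor_face _ _⟩
      rw [xt_true h hN0]
      refine ⟨d2, i + 1, by omega, by omega, ?_, ?_⟩
      · rw [Int.even_iff]
        have := hpar (i + 1)
        push_cast at this
        omega
      · rw [d1]
        exact H72.SD.cor_face_dir' _ _
    · obtain ⟨d, d1, -, d2⟩ := PN_side hN0 h.poly h.encl (i - 1)
      rw [Nat.sub_add_cancel (by omega)] at d1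
      refine ⟨_, d2, ?_, ?_⟩
      · rw [xt_true h hN0]
        refine ⟨d2, i - 1, by omega, by omega, ?_, H72.SD.cor_face _ _⟩
        rw [Int.even_iff]
        have := hpar (i - 1)
        have e : ((i - 1 : ℕ) : ℤ) = i - 1 := by rw [Nat.cast_sub (by omega)]; rfl
        omega
      · rw [d1]
        exact H72.SD.cor_face_dir' _ _
  obtain ⟨y, y1, y2, y3⟩ := key
  refine ⟨?_, y + v₀, fun hc => y1 (mem_dom_add.1 hc), ?_, cor_add.2 y3⟩
  · rw [even_add hv, Int.even_iff]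
    have := hpar i
    omega
  · rw [ext_eq, add_sub_cancel_right]
    exact y2

/-- A site of the domain which is a corner of an open square outside is on the wired arc. -/
theorem arcw_of {P : Sh4} (h : P.Ok 2) {N : ℕ} (hN : 16 ≤ N) {s x z : ℤ × ℤ}
    (hs : Even (s.1 + s.2)) (hx : x ∈ enl P.S N) (hxs : Cor x s) (hz : z ∉ enl P.S N)
    (hzs : Cor z s) (ht : xt N P z = true) :
    ∃ i : ℕ, N / 2 ≤ i ∧ i ≤ P.k * N + N / 2 ∧ PN P.q N i = s := by
  have hN0 : 0 < N := by omega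
  have hm := h.poly.1
  have hne : NeZero P.m := ⟨by omega⟩
  have hmN : 0 < P.m * N := Nat.mul_pos (by omega) hN0
  obtain ⟨i, -, -, hi⟩ := exists_idx h hN0 hx hxs hz hzs
  rw [xt_true h hN0] at ht
  obtain ⟨-, a, a1, a2, a3, a4⟩ := ht
  -- the two sites are corners of the square `z` of different parity
  have hadj : ∃ r, s = PN P.q N a + E6.dir r := by
    obtain ⟨c1, c2⟩ := a4
    obtain ⟨c3, c4⟩ := hzs
    generalize PN P.q N a = w at *
    obtain ⟨w1, w2⟩ := w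
    obtain ⟨s1, s2⟩ := s
    obtain ⟨z1, z2⟩ := z
    rw [Int.even_iff] at hs a3
    simp only at hs a3 c1 c2 c3 c4
    have : (s1 = w1 + 1 ∧ s2 = w2) ∨ (s1 = w1 ∧ s2 = w2 + 1) ∨ (s1 = w1 - 1 ∧ s2 = w2) ∨
        (s1 = w1 ∧ s2 = w2 - 1) := by omega
    rcases this with h1 | h1 | h1 | h1
    · exact ⟨0, by rw [Enl.dir0, Prod.mk_add_mk, Prod.mk.injEq]; omega⟩
    · exact ⟨1, by rw [Enl.dir1, Prod.mk_add_mk, Prod.mk.injEq]; omega⟩
    · exact ⟨2, by rw [Enl.dir2, Prod.mk_add_mk, Prod.mk.injEq]; omega⟩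
    · exact ⟨3, by rw [Enl.dir3, Prod.mk_add_mk, Prod.mk.injEq]; omega⟩
  obtain ⟨r, hr⟩ := hadj
  have hc := H825.Q.chordless_qN h.poly (by omega : 2 ≤ N) 0 ((a : ℕ) : ZMod (P.m * N))
    ((i : ℕ) : ZMod (P.m * N)) ⟨r, by rw [Enl.qN_nat hN0, Enl.qN_nat hN0, add_zero, add_zero, hi, hr]⟩
  rcases hc with hc | hc
  · refine ⟨a + 1, by omega, by omega, ?_⟩
    rw [← hi]
    refine Enl.PN_congr hN0 ?_
    push_cast
    exact hc.symm
  · refine ⟨a - 1, by omega, by omega, ?_⟩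
    rw [← hi]
    refine Enl.PN_congr hN0 ?_
    rw [Nat.cast_sub (by omega), hc]
    push_cast
    ring

/-- The path in the shape: the primal connection of `v₀` to the wired arc by squares of the shape. -/
theorem ft_shape {P : Sh4} (h : P.Ok 2) {N : ℕ} (hN : 16 ≤ N) (h4 : 4 ∣ N) {v₀ : ℤ × ℤ}
    (hv : Even (v₀.1 + v₀.2)) {ω : Cfg}
    (hω : ∀ v, v ∉ dom N v₀ P → ω v = QT.ext N v₀ P v) :
    BR.Jn true (dom N v₀ P) ω {v₀} (H375.arcw N v₀ ⟨P.m, P.q, P.S, P.k, P.j, P.l⟩) ↔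
      PC ω v₀ (v₀.1 + lP P N, v₀.2) := by
  have hN0 : 0 < N := by omega
  have hn := H369.nm (N := N) h
  have hlb := lb_eq (N := N) h
  have g3 : (P.j : ℤ) * N + 2 * N ≤ P.l * N := by exact_mod_cast hn.jl
  have g4 : (P.l : ℤ) * N + 2 * N ≤ P.m * N := by exact_mod_cast hn.lm
  have e1 : ((P.j : ℤ) - P.l - 2) * N = P.j * N - P.l * N - 2 * N := by ring
  have e2 : ((P.m : ℤ) - P.l + 1) * N = P.m * N - P.l * N + N := by ring
  have e3 : (P.m + 1) * N = P.m * N + N := by ring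
  have hl : lP P N = lb P N := rfl
  have k3 := hn.jl
  have k4 := hn.lm
  constructor
  · rintro ⟨u, hu, t, ⟨i, i1, i2, i3⟩, -, hp⟩
    rw [Set.mem_singleton_iff] at hu
    subst hu
    have hp' : PC ω u t := rtg_mono (fun v hv' => hv'.1) hp
    have hev : Even (t.1 + t.2) := by
      clear hp i3
      induction hp' with
      | refl => exact hv
      | tail _ h1 ih => exact even_step h1 ih
    have hi : i % 2 = 0 := by
      have hpar := PN_par hN0 (Dvd.dvd.trans (by norm_num) h4) h.poly i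
      have i3' : PN P.q N i + u = t := i3
      rw [← i3', even_add hv, Int.even_iff] at hev
      omega
    have hw : t ∈ Wr (dom N u P) (QT.ext N u P) := by
      have i3' : PN P.q N i + u = t := i3
      rw [← i3']
      exact wr_arc h hN h4 hv i1 i2 hi
    have h6 := dom_joined h.poly h.encl (by omega : 2 ≤ N) hv hw (wr_b h hN h4 hv)
    refine hp'.trans (rtg_mono ?_ h6)
    rintro v ⟨v1, v2⟩
    show ω v = true
    rw [hω v fun hc => v2 (mem_coe.2 hc)]
    exact v1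
  · intro hp
    have hb : (v₀.1 + lP P N, v₀.2) ∈ H375.arcw N v₀ ⟨P.m, P.q, P.S, P.k, P.j, P.l⟩ := by
      refine ⟨N / 2, le_rfl, by simp, ?_⟩
      show PN P.q N (N / 2) + v₀ = _
      rw [← PN_add_l hN0, PN_line h hN0 (by omega) (by rw [e3]; omega), hl, hlb]
      obtain ⟨a, b⟩ := v₀
      rw [Prod.mk_add_mk, Prod.mk.injEq]
      simp only
      refine ⟨?_, by ring⟩
      push_cast
      ring
    have key : ∀ s : ℤ × ℤ, PC ω s (v₀.1 + lP P N, v₀.2) → Even (s.1 + s.2) →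
        (∃ x ∈ dom N v₀ P, Cor x s) →
        ReflTransGen (PStep (H632.cs true ω ∩ (↑(dom N v₀ P) : Set (ℤ × ℤ)))) v₀ s →
        ∃ t ∈ H375.arcw N v₀ ⟨P.m, P.q, P.S, P.k, P.j, P.l⟩,
          ReflTransGen (PStep (H632.cs true ω ∩ (↑(dom N v₀ P) : Set (ℤ × ℤ)))) v₀ t := by
      intro s hs
      refine ReflTransGen.head_induction_on hs (fun _ _ h3 => ⟨_, hb, h3⟩) ?_
      intro a c hac _ ih ha hxa h3
      obtain ⟨q1, q2⟩ := FKA.cor_of_step hac
      have hac' := hac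
      obtain ⟨-, -, hac3⟩ := hac'
      generalize hw : ((min a.1 c.1, min a.2 c.2) : ℤ × ℤ) = w at *
      by_cases hwD : w ∈ dom N v₀ P
      · refine ih (even_step hac ha) ⟨w, hwD, q2⟩ (h3.tail ⟨hac.1, hac.2.1, ?_⟩)
        rw [hw]
        exact ⟨hac3, hwD⟩
      · refine ⟨a, ?_, h3⟩
        obtain ⟨x, x1, x2⟩ := hxa
        have ho : QT.ext N v₀ P w = true := by rw [← hω w hwD]; exact hac3
        obtain ⟨i, i1, i2, i3⟩ := arcw_of h hN (s := a - v₀) (x := x - v₀) (z := w - v₀)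
          ((even_add hv).1 (by rw [sub_add_cancel]; exact ha)) (mem_dom'.1 x1) (cor_sub' x2)
          (fun hc => hwD (mem_dom'.2 hc)) (cor_sub' q1) ho
        exact ⟨i, i1, i2, by
          show PN P.q N i + v₀ = a
          rw [i3, sub_add_cancel]⟩
    obtain ⟨t, t1, t2⟩ := key v₀ hp hv ⟨v₀, by
      rw [mem_dom', sub_self]
      exact enl_above (x := 0) (y := 0) h hN0 (by rw [e1]; omega) (by rw [e2]; omega) le_rfl
        (by omega), Or.inl rfl, Or.inl rfl⟩ ReflTransGen.refl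
    refine ⟨v₀, rfl, t, t1, ?_, t2⟩
    rw [Int.even_iff] at hv
    simpa [H632.pr] using hv

end Vale.Agent.P167.H364
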